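import Vale.Agent.P073Z.Sm.Sk

/-!
# P073, block FACE: the data attached to one face, lenses
-/

open Set Metric MeasureTheory Topology Filter
open scoped ContDiff ENNReal NNReal RealInnerProductSpace

noncomputable section

namespace Vale.Agent.P073Z.Sm.Face

section line

variable {x0 e : E}

theorem continuous_sc (x0 e : E) : Continuous (sc x0 e) := by
  unfold sc; fun_prop

theorem continuous_rc (x0 e : E) : Continuous (rc x0 e) := by
  unfold rc sc; fun_prop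

theorem eq_of_rc {x : E} (h : rc x0 e x = 0) : x0 + sc x0 e x • e = x := by
  rw [rc, norm_eq_zero, sub_eq_zero] at h
  rw [← h, add_sub_cancel]

theorem rc_phi (he : ‖e‖ = 1) {x : E} (h : rc x0 e x = 0) (y : E) {t : ℝ} (ht : 0 ≤ t) (s : ℝ) :
    rc x0 e (x + t • (y - x) + s • e) = t * rc x0 e y := by
  obtain ⟨u, rfl⟩ : ∃ u : ℝ, x = x0 + u • e := ⟨_, (eq_of_rc h).symm⟩
  have h1 : ⟪e, e⟫ = 1 := by rw [real_inner_self_eq_norm_sq, he]; norm_num
  have h2 : x0 + u • e + t • (y - (x0 + u • e)) + s • e - x0 =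
      t • (y - x0) + (u - t * u + s) • e := by module
  rw [rc, rc, sc, sc, h2, inner_add_right, inner_smul_right, inner_smul_right, h1,
    ← norm_smul_of_nonneg ht]
  congr 1
  module

theorem rc_base (he : ‖e‖ = 1) {x : E} (h : rc x0 e x = 0) (y : E) : rc x e y = rc x0 e y := by
  obtain ⟨u, rfl⟩ : ∃ u : ℝ, x = x0 + u • e := ⟨_, (eq_of_rc h).symm⟩
  have h1 : ⟪e, e⟫ = 1 := by rw [real_inner_self_eq_norm_sq, he]; norm_num
  have h2 : y - (x0 + u • e) = y - x0 + (-u) • e := by module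
  rw [rc, rc, sc, sc, h2, inner_add_right, inner_smul_right, h1]
  congr 1
  module

end line

/-- the global data -/
structure Ctx where
  /-- smoothing function -/
  M : ℝ → ℝ → ℝ
  /-- the map -/
  g : E → E
  /-- the domain -/
  U : Set E
  /-- the gauge -/
  γ : E → ℝ
  /-- base points -/
  x0 : Lab → E
  /-- directions -/
  e : Lab → E
  /-- radii -/
  ρ : Lab → ℝ → ℝ
  hM : IsM M
  st : StmtST
  opn : IsOpen U
  cont : ContinuousOn g U
  inj : InjOn g U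
  cone : ∀ x ∈ U, ConeAt g x
  rk1 : ∀ x ∈ U, 1 ≤ rk g x
  lip : LipschitzWith 1 γ
  pos : ∀ x ∈ U, 0 < γ x
  lines : Lines U (Sk g U 1) (lab g) x0 e
  ρc : ∀ i, Continuous (ρ i)
  ρp : ∀ i s, x0 i + s • e i ∈ Sk g U 1 → lab g (x0 i + s • e i) = i → 0 < ρ i s
  null : volume (Sk g U 1) = 0

/-- the bad set of a face -/
def Ctx.bad (X : Ctx) (l : Lab) : Set E := (Sk X.g X.U 2 \ face X.g X.U l) ∪ X.Uᶜ

/-- the data attached to a face -/
structure Fc (X : Ctx) (l : Lab) where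
  /-- base point -/
  xf : E
  /-- normal -/
  n : E
  /-- folding vector -/
  a : E
  /-- linear part -/
  A : E ≃L[ℝ] E
  /-- half width -/
  d : E → ℝ
  /-- Lipschitz constant of the models -/
  C : ℝ≥0
  /-- Lipschitz constant of the half width -/
  κ : ℝ≥0
  mem : xf ∈ face X.g X.U l
  unit : ‖n‖ = 1
  lin : ∀ w, w ∈ Lin X.g xf ↔ ⟪n, w⟫ = 0
  tan : ∀ y, l.1 y = X.g xf + A (y - xf + max ⟪n, y - xf⟫ 0 • a)
  κ3 : (κ : ℝ) ≤ 1 / 3
  Cκ : (C : ℝ) * κ ≤ 1 / 2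
  dlip : LipschitzWith κ d
  dnn : ∀ y, 0 ≤ d y
  dn : ∀ (y : E) (t : ℝ), d (y + t • n) = d y
  dpos : ∀ y, ⟪n, y - xf⟫ = 0 → (0 < d y ↔ y ∈ face X.g X.U l)
  dle : ∀ y ∈ face X.g X.U l, d y ≤ κ ∧ d y ≤ κ * X.γ y ∧ d y ≤ κ * infDist y (X.bad l)
  dtube : ∀ i, ∃ η : ℝ, ∀ y ∈ face X.g X.U l, y ∈ tube (X.x0 i) (X.e i) (X.ρ i) (1 / 4) →
    d y = η * rc (X.x0 i) (X.e i) y
  bijG : Function.Bijective l.1
  bijH : Function.Bijective (fm X.M (X.g xf) A xf n a d)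
  lipG : LipschitzWith C l.1
  lipH : LipschitzWith C (fm X.M (X.g xf) A xf n a d)
  ld : ∀ y, 0 < d y → LD (fm X.M (X.g xf) A xf n a d) y
  close : ∀ y, ‖fm X.M (X.g xf) A xf n a d y - l.1 y‖ ≤ C * d y

namespace Fc

variable {X : Ctx} {l l' : Lab} (F : Fc X l)

/-- the smoothed model -/
def H : E → E := fm X.M (X.g F.xf) F.A F.xf F.n F.a F.d

/-- the signed distance to the plane -/
def σ (y : E) : ℝ := ⟪F.n, y - F.xf⟫

/-- the projection to the plane -/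
def pr (y : E) : E := y + (-F.σ y) • F.n

/-- the lens -/
def L : Set E := {y | 0 < F.d y ∧ |F.σ y| ≤ F.d y}

/-- the open neighbourhood of the lens -/
def N : Set E := {y | 0 < F.d y ∧ |F.σ y| < 3 / 2 * F.d y}

theorem nn : ⟪F.n, F.n⟫ = 1 := by rw [real_inner_self_eq_norm_sq, F.unit]; norm_num

theorem σ_add (y : E) (t : ℝ) : F.σ (y + t • F.n) = F.σ y + t := by
  rw [σ, σ, add_sub_right_comm, inner_add_right, inner_smul_right, F.nn, mul_one]

theorem σ_pr (y : E) : F.σ (F.pr y) = 0 := by rw [pr, σ_add, add_neg_cancel]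

theorem d_pr (y : E) : F.d (F.pr y) = F.d y := F.dn _ _

theorem dist_pr (y : E) : dist (F.pr y) y = |F.σ y| := by
  rw [pr, dist_self_add_left, norm_smul, F.unit, mul_one, Real.norm_eq_abs, abs_neg]

theorem σ_sub (y z : E) : F.σ y - F.σ z = ⟪F.n, y - z⟫ := by
  rw [σ, σ, ← inner_sub_right, sub_sub_sub_cancel_right]

theorem abs_σ_sub (y z : E) : |F.σ y - F.σ z| ≤ dist y z := by
  rw [σ_sub, dist_eq_norm]
  exact (abs_real_inner_le_norm _ _).trans_eq (by rw [F.unit, one_mul])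

theorem abs_d_sub (y z : E) : |F.d y - F.d z| ≤ dist y z := by
  have h := F.dlip.dist_le_mul y z
  have h3 := F.κ3
  rw [Real.dist_eq] at h
  nlinarith [dist_nonneg (x := y) (y := z)]

theorem continuous_σ : Continuous F.σ := by
  unfold σ; fun_prop

theorem isOpen_N : IsOpen F.N :=
  (isOpen_lt continuous_const F.dlip.continuous).inter
    (isOpen_lt F.continuous_σ.abs (continuous_const.mul F.dlip.continuous))

theorem L_sub : F.L ⊆ F.N := fun _ h => ⟨h.1, by linarith [h.1, h.2]⟩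

theorem pr_mem {y : E} (h : 0 < F.d y) : F.pr y ∈ face X.g X.U l :=
  (F.dpos _ (F.σ_pr y)).1 (by rwa [d_pr])

theorem lin_iff {y : E} (hy : y ∈ face X.g X.U l) (z : E) : z - y ∈ Lin X.g y ↔ F.σ z = 0 := by
  have h : lab X.g y = lab X.g F.xf := hy.2.2.trans F.mem.2.2.symm
  exact (Set.ext_iff.1 (congrArg Prod.snd h) z).trans (F.lin _)

theorem σ_face {y : E} (hy : y ∈ face X.g X.U l) : F.σ y = 0 :=
  (F.lin_iff hy y).1 (by rw [sub_self]; exact zero_mem _)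

theorem face_sub {y : E} (hy : y ∈ face X.g X.U l) : y ∈ F.N := by
  have h := (F.dpos y (F.σ_face hy)).2 hy
  exact ⟨h, by rw [F.σ_face hy, abs_zero]; positivity⟩

theorem d_le_bad {y z : E} (h : 0 < F.d y) (hz : z ∈ X.bad l) :
    F.d y ≤ F.κ * dist (F.pr y) z := by
  have h1 := (F.dle _ (F.pr_mem h)).2.2
  rw [d_pr] at h1
  exact h1.trans (mul_le_mul_of_nonneg_left (infDist_le_dist_of_mem hz) F.κ.2)

theorem three_d_le {y z : E} (h : 0 < F.d y) (hz : z ∈ X.bad l) :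
    3 * F.d y ≤ dist (F.pr y) z := by
  have h1 := F.d_le_bad h hz
  have h3 := F.κ3
  nlinarith [dist_nonneg (x := F.pr y) (y := z)]

theorem not_bad {y z : E} (h : 0 < F.d y) (hz : z ∈ ball (F.pr y) (3 * F.d y)) :
    z ∈ X.U ∧ (rk X.g z ≤ 2 → z ∈ face X.g X.U l) := by
  have h1 : z ∉ X.bad l := fun hb => by
    have := F.three_d_le h hb
    rw [mem_ball'] at hz
    linarith
  have hU : z ∈ X.U := by_contra fun hU => h1 (Or.inr hU)
  exact ⟨hU, fun hr => by_contra fun hf => h1 (Or.inl ⟨⟨hU, hr⟩, hf⟩)⟩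

theorem mem_ball_of_N {y : E} (h : y ∈ F.N) : y ∈ ball (F.pr y) (3 * F.d y) := by
  rw [mem_ball', dist_pr]
  linarith [h.1, h.2]

theorem N_sub {y : E} (h : y ∈ F.N) : y ∈ X.U := (F.not_bad h.1 (F.mem_ball_of_N h)).1

theorem not_mem_N {y : E} (h : rk X.g y ≤ 1) : y ∉ F.N := fun hy => by
  have := ((F.not_bad hy.1 (F.mem_ball_of_N hy)).2 (h.trans one_le_two)).2.1
  omega

theorem g_eq {y : E} (h : y ∈ F.N) : X.g y = l.1 y := by
  have hp := F.pr_mem h.1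
  have hs : ball (F.pr y) (3 * F.d y) ⊆ X.U := fun z hz => (F.not_bad h.1 hz).1
  have h1 := X.st.ball X.g (F.pr y) (3 * F.d y) (fun z hz => X.cone z (hs hz)) (X.cont.mono hs)
    (X.inj.mono hs) hp.2.1 (fun z hz hr => ((F.not_bad h.1 hz).2 hr).2.2.trans hp.2.2.symm) y
    (F.mem_ball_of_N h)
  exact h1.trans (congrFun (congrArg Prod.fst hp.2.2) y)

theorem H_eq {y : E} (h : y ∉ F.L) : F.H y = l.1 y := by
  have h1 : F.d y ≤ |F.σ y| := by
    rcases (F.dnn y).eq_or_lt with h0 | h0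
    · rw [← h0]; exact abs_nonneg _
    · exact le_of_lt (not_le.1 fun h2 => h ⟨h0, h2⟩)
  rw [F.tan, H, fm, X.hM.out ⟪F.n, y - F.xf⟫ _ (F.dnn y) h1]

theorem eq_of_N (F' : Fc X l') {y : E} (h : y ∈ F.N) (h' : y ∈ F'.N) : l = l' := by
  by_contra hne
  have hp := F.pr_mem h.1
  have hp' := F'.pr_mem h'.1
  have h1 := F.three_d_le h.1 (z := F'.pr y)
    (Or.inl ⟨⟨hp'.1, hp'.2.1.le⟩, fun hf => hne (hf.2.2.symm.trans hp'.2.2)⟩)
  have h2 := F'.three_d_le h'.1 (z := F.pr y)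
    (Or.inl ⟨⟨hp.1, hp.2.1.le⟩, fun hf => hne (hp.2.2.symm.trans hf.2.2)⟩)
  have h3 := dist_triangle_right (F.pr y) (F'.pr y) y
  rw [dist_pr, dist_pr] at h3
  rw [dist_comm] at h2
  linarith [h.2, h'.2]

theorem mem_bad {x : E} (hx : x ∈ Sk X.g X.U 1) : x ∈ X.bad l :=
  Or.inl ⟨⟨hx.1, hx.2.trans one_le_two⟩, fun hf => by
    have h1 := hf.2.1
    have h2 := hx.2
    omega⟩

theorem dist_pr_le {x y : E} (hx : x ∈ X.bad l) (h : y ∈ F.N) :
    dist (F.pr y) x ≤ 2 * dist y x := by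
  have h1 := F.three_d_le h.1 hx
  have h2 := dist_triangle (F.pr y) y x
  rw [dist_pr] at h2
  linarith [h.2]

theorem close_bad {x y : E} (hx : x ∈ X.bad l) (h : y ∈ F.N) : ‖F.H y - l.1 y‖ ≤ dist y x := by
  have h1 := mul_le_mul_of_nonneg_left (F.d_le_bad h.1 hx) F.C.2
  have h2 := F.dist_pr_le hx h
  have h3 := mul_le_mul_of_nonneg_right F.Cκ (dist_nonneg (x := F.pr y) (y := x))
  have h4 := F.close y
  rw [← mul_assoc] at h1
  change ‖F.H y - l.1 y‖ ≤ _ at h4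
  change (F.C : ℝ) * _ ≤ (F.C : ℝ) * _ * _ at h1
  linarith

theorem close_gauge {y : E} (h : y ∈ F.L) : ‖F.H y - l.1 y‖ ≤ X.γ y := by
  have hp := F.pr_mem h.1
  have h0 := X.pos _ hp.1
  have h1 := (F.dle _ hp).2.1
  rw [d_pr] at h1
  have h2 := mul_le_mul_of_nonneg_left h1 F.C.2
  have h3 := mul_le_mul_of_nonneg_right F.Cκ h0.le
  have h4 := F.close y
  have h5 := mul_le_mul_of_nonneg_right F.κ3 h0.le
  have h6 := X.lip.dist_le_mul (F.pr y) y
  rw [dist_pr, Real.dist_eq, NNReal.coe_one, one_mul] at h6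
  rw [← mul_assoc] at h2
  change ‖F.H y - l.1 y‖ ≤ _ at h4
  change (F.C : ℝ) * _ ≤ (F.C : ℝ) * _ * _ at h2
  linarith [h.2, (abs_le.1 h6).2]

theorem slab {y : E} (h : y ∈ F.L) : |F.σ y| ≤ F.κ := by
  have h1 := (F.dle _ (F.pr_mem h.1)).1
  rw [d_pr] at h1
  exact h.2.trans h1

theorem mem_N_of_near {x z : E} {r : ℝ} (hr : ∀ y ∈ ball x r, 3 ≤ rk X.g y)
    (hz : dist z x < r / 10) (hL : z ∈ F.L) : x ∈ F.N := by
  have hp := F.pr_mem hL.1
  have h1 : r ≤ dist (F.pr z) x := not_lt.1 fun h => by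
    have := hr _ h
    have h2 := hp.2.1
    omega
  have h2 := dist_triangle (F.pr z) z x
  rw [dist_pr] at h2
  have h3 := abs_le.1 (F.abs_d_sub z x)
  have h4 := (abs_sub_abs_le_abs_sub (F.σ x) (F.σ z)).trans (F.abs_σ_sub x z)
  rw [dist_comm] at h4
  have h5 := dist_nonneg (x := z) (y := x)
  exact ⟨by linarith [hL.2], by linarith [hL.2]⟩

end Fc

end Vale.Agent.P073Z.Sm.Face
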