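import Vale.Agent.P073Z.Sm.Face.A

/-!
# P073, block FACE: behaviour of the lenses near an edge
-/

open Set Metric MeasureTheory Topology Filter
open scoped ContDiff ENNReal NNReal RealInnerProductSpace

noncomputable section

namespace Vale.Agent.P073Z.Sm.Face

/-- what is needed from a point `y` near the edge point `x` -/
structure Near (X : Ctx) (x c y : E) : Prop where
  mem : y ∈ X.U
  tub : y ∈ tube (X.x0 (lab X.g x)) (X.e (lab X.g x)) (X.ρ (lab X.g x)) (1 / 4)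
  eq : X.g =ᶠ[𝓝 y] tanM X.g x
  le : Lin X.g x ≤ Lin X.g y
  sub : y - x ∈ Lin X.g y
  apex : tanM X.g y x = X.g x
  tr : ∀ᶠ q : E × ℝ in 𝓝 (y, (0 : ℝ)),
    X.g (q.1 + q.2 • X.e (lab X.g x)) = X.g q.1 + q.2 • c

namespace Ctx

variable (X : Ctx) {x : E}

theorem cone_near (hx : x ∈ X.U) : ∀ᶠ y in 𝓝 x, ConeAt X.g y :=
  mem_of_superset (X.opn.mem_nhds hx) X.cone

theorem rc_eq (hx : x ∈ Sk X.g X.U 1) : rc (X.x0 (lab X.g x)) (X.e (lab X.g x)) x = 0 :=
  (X.lines.loc x hx).self_of_nhds.1.1 hx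

theorem e_mem (hx : x ∈ Sk X.g X.U 1) : X.e (lab X.g x) ∈ Lin X.g x := by
  have ht : Tendsto (fun s : ℝ => x + s • X.e (lab X.g x)) (𝓝[≠] 0) (𝓝 x) := by
    have : Continuous fun s : ℝ => x + s • X.e (lab X.g x) := by fun_prop
    simpa using (this.tendsto 0).mono_left nhdsWithin_le_nhds
  obtain ⟨s, hs, hs0⟩ := ((ht.eventually (X.lines.loc x hx)).and self_mem_nhdsWithin).exists
  have h1 := rc_phi (X.lines.unit _) (X.rc_eq hx) x zero_le_one s
  rw [sub_self, smul_zero, add_zero, X.rc_eq hx, mul_zero] at h1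
  have h2 := (Set.ext_iff.1 (congrArg Prod.snd (hs.2 (hs.1.2 h1))) (x + s • X.e (lab X.g x))).1
    (show _ - _ ∈ Lin X.g _ by rw [sub_self]; exact zero_mem _)
  change _ - _ ∈ Lin X.g x at h2
  rw [add_sub_cancel_left] at h2
  exact (Submodule.smul_mem_iff _ hs0).1 h2

theorem near {c : E} (hx : x ∈ Sk X.g X.U 1) (hc : ∀ᶠ q : E × ℝ in 𝓝 (x, (0 : ℝ)),
    X.g (q.1 + q.2 • X.e (lab X.g x)) = X.g q.1 + q.2 • c) : ∀ᶠ y in 𝓝 x, Near X x c y := by
  have h0 : 0 < X.ρ (lab X.g x) (sc (X.x0 (lab X.g x)) (X.e (lab X.g x)) x) :=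
    X.ρp _ _ (by rwa [eq_of_rc (X.rc_eq hx)]) (by rw [eq_of_rc (X.rc_eq hx)])
  have hρ := (X.ρc (lab X.g x)).comp (continuous_sc (X.x0 (lab X.g x)) (X.e (lab X.g x)))
  have h1 := (isOpen_lt continuous_const hρ).mem_nhds h0
  have h2 := (isOpen_lt (continuous_rc (X.x0 (lab X.g x)) (X.e (lab X.g x)))
    ((continuous_const (y := (1 / 4 : ℝ))).mul hρ)).mem_nhds (x := x) (by
      rw [mem_ofPred_eq, X.rc_eq hx]
      exact mul_pos (by norm_num) h0)
  have h3 := (X.st.isTan X.g x (X.cone x hx.1)).1.eventually_nhds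
  have h4 : ContinuousAt (fun y : E => (y, (0 : ℝ))) x := by fun_prop
  filter_upwards [X.opn.mem_nhds hx.1, h1, h2, h3, X.st.near X.g x (X.cone_near hx.1),
    h4.eventually hc.eventually_nhds] with y a1 a2 a3 a4 a5 a6
  exact ⟨a1, ⟨a2, le_of_lt a3⟩, EventuallyEq.symm a4, a5.1, a5.2.1, a5.2.2.1, a6⟩

end Ctx

namespace Fc

variable {X : Ctx} {l : Lab} (F : Fc X l)

theorem lens_phi {x c y : E} {r t s : ℝ} (hx : x ∈ Sk X.g X.U 1)
    (hr : ∀ z ∈ ball x (2 * r), Near X x c z) (ht : 0 < t) (hy : y ∈ ball x r)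
    (hφ : x + t • (y - x) + s • X.e (lab X.g x) ∈ ball x r) (hL : y ∈ F.L) :
    x + t • (y - x) + s • X.e (lab X.g x) ∈ F.L ∧
      F.H (x + t • (y - x) + s • X.e (lab X.g x)) = X.g x + t • (F.H y - X.g x) + s • c := by
  have hp := F.pr_mem hL.1
  have he := X.e_mem hx
  have hu := X.lines.unit (lab X.g x)
  have hrc := X.rc_eq hx
  obtain ⟨η, hη⟩ := F.dtube (lab X.g x)
  have n0 := hr (F.pr y) (by
    have := F.dist_pr_le (mem_bad hx) (F.L_sub hL)
    rw [mem_ball] at hy ⊢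
    linarith)
  have hlin : ∀ w ∈ Lin X.g (F.pr y), ⟪F.n, w⟫ = 0 := fun w hw => by
    have h1 := (F.lin_iff hp (F.pr y + w)).1 (by rwa [add_sub_cancel_left])
    have h2 := F.σ_sub (F.pr y + w) (F.pr y)
    rwa [h1, σ_pr, sub_self, add_sub_cancel_left, eq_comm] at h2
  have hne := hlin _ (n0.le he)
  have hσx : F.σ x = 0 := by
    have h2 := F.σ_sub (F.pr y) x
    rw [hlin _ n0.sub, σ_pr] at h2
    linarith
  have htan : tanM X.g (F.pr y) = l.1 := congrArg Prod.fst hp.2.2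
  have hAe : F.A (X.e (lab X.g x)) = c := by
    have h1 := (X.st.transl X.g (F.pr y) _ c (X.cone _ n0.mem) n0.tr).1 F.xf 1
    rw [htan, F.tan, F.tan, one_smul, one_smul, add_sub_cancel_left, sub_self, hne,
      inner_zero_right] at h1
    simpa using h1
  have hgx : X.g x = X.g F.xf + F.A (x - F.xf) := by
    have h1 := n0.apex
    rw [htan, F.tan, show ⟪F.n, x - F.xf⟫ = 0 from hσx] at h1
    simpa using h1.symm
  set e := X.e (lab X.g x)
  have hσ : ∀ z, F.σ (x + t • (z - x) + s • e) = t * F.σ z := fun z => by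
    have h1 := F.σ_sub (x + t • (z - x) + s • e) x
    rw [hσx, sub_zero, add_assoc, add_sub_cancel_left, inner_add_right, inner_smul_right,
      inner_smul_right, hne, mul_zero, add_zero, ← F.σ_sub, hσx, sub_zero, ← add_assoc] at h1
    exact h1
  have hpr : F.pr (x + t • (y - x) + s • e) = x + t • (F.pr y - x) + s • e := by
    rw [pr, pr, hσ]
    module
  have n1 := hr (F.pr (x + t • (y - x) + s • e)) (by
    have h1 := dist_triangle (F.pr (x + t • (y - x) + s • e)) (x + t • (y - x) + s • e) x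
    have h2 := F.abs_σ_sub (x + t • (y - x) + s • e) x
    rw [hσx, sub_zero] at h2
    rw [dist_pr] at h1
    rw [mem_ball] at hφ ⊢
    linarith)
  have hf : F.pr (x + t • (y - x) + s • e) ∈ face X.g X.U l := by
    have h1 := (X.st.glob X.g x (X.cone_near hx.1) (F.pr y)).2.2.2 t (s • e) ht
      (Submodule.smul_mem _ _ he)
    rw [← hpr] at h1
    have h2 := X.st.germ _ _ _ n0.eq
    have h3 := X.st.germ _ _ _ n1.eq
    refine ⟨n1.mem, ?_, h3.2.2.2.1.trans (h1.2.trans (h2.2.2.2.1.symm.trans hp.2.2))⟩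
    rw [rk, h3.2.1, h1.1, ← h2.2.1]
    exact hp.2.1
  have hd : F.d (x + t • (y - x) + s • e) = t * F.d y := by
    rw [← d_pr, hη _ hf n1.tub, hpr, rc_phi hu hrc _ ht.le, ← F.d_pr y, hη _ hp n0.tub]
    ring
  refine ⟨⟨by rw [hd]; exact mul_pos ht hL.1, ?_⟩, ?_⟩
  · rw [hd, hσ, abs_mul, abs_of_pos ht]
    exact mul_le_mul_of_nonneg_left hL.2 ht.le
  · have h1 := hσ y
    rw [σ, σ] at h1
    rw [H, fm, fm, h1, hd, X.hM.hom _ _ _ ht, hgx, ← hAe]
    simp only [map_add, map_sub, map_smul]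
    module

theorem exists_aff {x y : E} (hx : x ∈ X.bad l) (hy : y ∈ F.N) :
    ∃ y1 ∈ F.N, dist y1 x ≤ 3 * dist y x ∧ ∃ (A : E →L[ℝ] E) (b : E),
      ∀ᶠ z in 𝓝 y1, F.H z = b + A z := by
  have hd : F.d (F.pr y + (5 / 4 * F.d y) • F.n) = F.d y := by rw [F.dn, d_pr]
  have hσ : F.σ (F.pr y + (5 / 4 * F.d y) • F.n) = 5 / 4 * F.d y := by
    rw [σ_add, σ_pr, zero_add]
  have h0 := hy.1
  refine ⟨F.pr y + (5 / 4 * F.d y) • F.n, ⟨by rwa [hd], ?_⟩, ?_,
    (F.A : E →L[ℝ] E).comp (ContinuousLinearMap.id ℝ E + (innerSL ℝ F.n).smulRight F.a),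
    X.g F.xf - F.A (F.xf + ⟪F.n, F.xf⟫ • F.a), ?_⟩
  · rw [hd, hσ, abs_of_pos (by positivity)]
    linarith
  · have h1 := dist_triangle (F.pr y + (5 / 4 * F.d y) • F.n) (F.pr y) x
    rw [dist_self_add_left, norm_smul, F.unit, mul_one, Real.norm_of_nonneg (by positivity)] at h1
    linarith [F.three_d_le h0 hx, F.dist_pr_le hx hy, dist_nonneg (x := y) (y := x)]
  · filter_upwards [(isOpen_lt F.dlip.continuous F.continuous_σ).mem_nhds
      (x := F.pr y + (5 / 4 * F.d y) • F.n) (by rw [mem_ofPred_eq, hd, hσ]; linarith)] with z hz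
    have h1 : 0 ≤ F.σ z := (F.dnn z).trans (le_of_lt hz)
    rw [F.H_eq fun h => absurd (h.2.trans_lt hz) (not_lt.2 (le_abs_self _)), F.tan,
      max_eq_left (show 0 ≤ ⟪F.n, z - F.xf⟫ from h1), inner_sub_right]
    simp only [ContinuousLinearMap.comp_apply, add_apply,
      ContinuousLinearMap.id_apply, ContinuousLinearMap.smulRight_apply, innerSL_apply_apply,
      ContinuousLinearEquiv.coe_coe, map_add, map_sub, map_smul]
    module

end Fc

end Vale.Agent.P073Z.Sm.Face
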